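import Vale.Agent.P313.H638.N4.Seeds

/-!
# Automata from matrices

The automaton of a sequence of nonnegative integer matrices with row sums at most `D0`, and the
automaton with a sign for a sequence of differences of such matrices.
-/

namespace Vale.Agent.P313.N4

open Finset MW H577

/-! ### The distribution function -/

/-- Cumulative sums. -/
def cum (B : ℕ → ℕ) (v : ℕ) : ℕ := ∑ x ∈ range v, B x

/-- From the state `u` with the label `y` to the state `v` with
`cum v * Q ≤ D0 * y < cum (v + 1) * Q`; `N` if there is none. -/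
def cdf (Q D0 N : ℕ) (B : ℕ → ℕ → ℕ → ℕ) (p u y : ℕ) : ℕ :=
  if u < N then #{v ∈ range N | cum (B p u) (v + 1) * Q ≤ D0 * y} else N

variable {Q D0 N : ℕ}

theorem cum_mono (B : ℕ → ℕ) {v v' : ℕ} (h : v ≤ v') : cum B v ≤ cum B v' := by
  unfold cum
  exact sum_le_sum_of_subset (range_mono h)

theorem cdf_le (B : ℕ → ℕ → ℕ → ℕ) (p u y : ℕ) : cdf Q D0 N B p u y ≤ N := by
  unfold cdf
  split_ifs
  · exact (card_filter_le _ _).trans (by rw [card_range])
  · exact le_rfl

theorem cdf_eq_iff {B : ℕ → ℕ → ℕ → ℕ} {p u y v : ℕ} (hu : u < N) (hv : v < N) :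
    cdf Q D0 N B p u y = v ↔
      cum (B p u) v * Q ≤ D0 * y ∧ D0 * y < cum (B p u) (v + 1) * Q := by
  unfold cdf
  rw [if_pos hu]
  have hset : ∀ m ≤ N, cum (B p u) m * Q ≤ D0 * y →
      m ≤ #{v ∈ range N | cum (B p u) (v + 1) * Q ≤ D0 * y} := by
    intro m hm h
    calc m = #(range m) := (card_range m).symm
      _ ≤ _ := by
        refine card_le_card fun x hx => ?_
        rw [mem_range] at hx
        rw [mem_filter, mem_range]
        exact ⟨by omega, (Nat.mul_le_mul_right _ (cum_mono _ (by omega))).trans h⟩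
  have hset2 : ∀ m, D0 * y < cum (B p u) (m + 1) * Q →
      #{v ∈ range N | cum (B p u) (v + 1) * Q ≤ D0 * y} ≤ m := by
    intro m h
    calc _ ≤ #(range m) := by
          refine card_le_card fun x hx => ?_
          rw [mem_filter, mem_range] at hx
          rw [mem_range]
          by_contra hc
          have := Nat.mul_le_mul_right Q (cum_mono (B p u) (show m + 1 ≤ x + 1 by omega))
          omega
      _ = m := card_range m
  constructor
  · intro h
    constructor
    · rcases Nat.eq_zero_or_pos v with h0 | h0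
      · subst h0
        simp [cum]
      · by_contra hc
        push Not at hc
        have h1 := hset2 (v - 1) (by rwa [Nat.sub_add_cancel h0])
        omega
    · by_contra hc
      push Not at hc
      have h1 := hset (v + 1) (by omega) hc
      omega
  · rintro ⟨h1, h2⟩
    exact le_antisymm (hset2 v h2) (hset v hv.le h1)

/-- The number of `y` with `y D < a Q`. -/
theorem card_lt (hD : 0 < D0) {a : ℕ} (ha : a ≤ D0) :
    (#{y ∈ range Q | D0 * y < a * Q} : ℚ) < (a : ℚ) * Q / D0 + 1 ∧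
      (a : ℚ) * Q / D0 ≤ #{y ∈ range Q | D0 * y < a * Q} := by
  have hD' : (0 : ℚ) < D0 := by exact_mod_cast hD
  have h1 : ({y ∈ range Q | D0 * y < a * Q} : Finset ℕ) = range ((a * Q + D0 - 1) / D0) := by
    ext y
    rw [mem_filter, mem_range, mem_range]
    constructor
    · rintro ⟨_, h⟩
      rw [Nat.lt_iff_add_one_le, Nat.le_div_iff_mul_le hD]
      have : (y + 1) * D0 = D0 * y + D0 := by ring
      omega
    · intro h
      rw [Nat.lt_iff_add_one_le, Nat.le_div_iff_mul_le hD] at h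
      have e : (y + 1) * D0 = D0 * y + D0 := by ring
      have h2 : D0 * y < a * Q := by omega
      refine ⟨?_, h2⟩
      by_contra hc
      push Not at hc
      have h3 : a * Q ≤ D0 * y := Nat.mul_le_mul ha hc
      omega
  rw [h1, card_range]
  have h2 : (a * Q + D0 - 1) / D0 * D0 ≤ a * Q + D0 - 1 := Nat.div_mul_le_self _ _
  have h3 : a * Q + D0 - 1 < ((a * Q + D0 - 1) / D0 + 1) * D0 := by
    have h4 := Nat.div_add_mod (a * Q + D0 - 1) D0
    have h5 := Nat.mod_lt (a * Q + D0 - 1) hD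
    calc a * Q + D0 - 1 = D0 * ((a * Q + D0 - 1) / D0) + (a * Q + D0 - 1) % D0 := h4.symm
      _ < D0 * ((a * Q + D0 - 1) / D0) + D0 := by omega
      _ = _ := by ring
  constructor
  · rw [← sub_lt_iff_lt_add, lt_div_iff₀ hD']
    have h4 : (a * Q + D0 - 1) / D0 * D0 < a * Q + D0 := by omega
    have h5 : (((a * Q + D0 - 1) / D0 : ℕ) : ℚ) * D0 < a * Q + D0 := by exact_mod_cast h4
    linarith
  · rw [div_le_iff₀ hD']
    have h4 : a * Q ≤ (a * Q + D0 - 1) / D0 * D0 := by
      have e : ((a * Q + D0 - 1) / D0 + 1) * D0 = (a * Q + D0 - 1) / D0 * D0 + D0 := by ring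
      omega
    exact_mod_cast h4

/-- One step of the automaton. -/
theorem one_cdf (hQ : 0 < Q) (hD : 0 < D0) {B : ℕ → ℕ → ℕ → ℕ} {p u v : ℕ} (hu : u < N)
    (hv : v < N) (hB : ∑ x ∈ range N, B p u x ≤ D0) :
    |one Q (cdf Q D0 N B) p u v - (B p u v : ℚ) / D0| ≤ 1 / Q := by
  have hQ' : (0 : ℚ) < Q := by exact_mod_cast hQ
  have hb : cum (B p u) (v + 1) ≤ D0 := (cum_mono _ hv).trans hB
  have ha : cum (B p u) v ≤ D0 := (cum_mono _ (Nat.le_succ v)).trans hb
  have h1 : #{y ∈ range Q | cdf Q D0 N B p u y = v} +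
      #{y ∈ range Q | D0 * y < cum (B p u) v * Q} =
      #{y ∈ range Q | D0 * y < cum (B p u) (v + 1) * Q} := by
    rw [← card_union_of_disjoint]
    · congr 1
      ext y
      rw [mem_union, mem_filter, mem_filter, mem_filter, cdf_eq_iff hu hv]
      have := Nat.mul_le_mul_right Q (cum_mono (B p u) (Nat.le_succ v))
      constructor
      · rintro (⟨h, _, h3⟩ | ⟨h, h3⟩)
        · exact ⟨h, h3⟩
        · exact ⟨h, h3.trans_le this⟩
      · rintro ⟨h, h3⟩
        by_cases hc : D0 * y < cum (B p u) v * Q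
        · exact Or.inr ⟨h, hc⟩
        · exact Or.inl ⟨h, by omega, h3⟩
    · rw [disjoint_filter]
      intro y _ h3 h4
      rw [cdf_eq_iff hu hv] at h3
      omega
  obtain ⟨a1, a2⟩ := card_lt (Q := Q) hD ha
  obtain ⟨b1, b2⟩ := card_lt (Q := Q) hD hb
  have h2 : (#{y ∈ range Q | cdf Q D0 N B p u y = v} : ℚ) +
      #{y ∈ range Q | D0 * y < cum (B p u) v * Q} =
      #{y ∈ range Q | D0 * y < cum (B p u) (v + 1) * Q} := by exact_mod_cast h1
  have h3 : ((cum (B p u) (v + 1) : ℕ) : ℚ) * Q / D0 = (cum (B p u) v : ℕ) * Q / D0 +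
      (B p u v : ℚ) * Q / D0 := by
    unfold cum
    rw [sum_range_succ]
    push_cast
    ring
  unfold one
  have h4 : (#{x ∈ range Q | cdf Q D0 N B p u x = v} : ℚ) / Q - (B p u v : ℚ) / D0 =
      ((#{x ∈ range Q | cdf Q D0 N B p u x = v} : ℚ) - (B p u v : ℚ) * Q / D0) / Q := by
    field_simp
  rw [h4, abs_div, abs_of_pos hQ', div_le_div_iff_of_pos_right hQ', abs_le]
  constructor <;> linarith

theorem one_cdf_dead (B : ℕ → ℕ → ℕ → ℕ) {p v : ℕ} (hv : v < N) :
    one Q (cdf Q D0 N B) p N v = 0 := by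
  unfold one cdf
  have : ({x ∈ range Q | (if N < N then #{v ∈ range N | cum (B p N) (v + 1) * Q ≤ D0 * x} else N)
      = v} : Finset ℕ) = ∅ := by
    rw [filter_eq_empty_iff]
    intro x _
    rw [if_neg (lt_irrefl N)]
    omega
  rw [this]
  simp

theorem prq_le_one {m : ℕ → ℕ → ℕ → ℚ} (hm0 : ∀ p u v, 0 ≤ m p u v)
    (hm : ∀ p, ∀ u < N, ∑ v ∈ range N, m p u v ≤ 1) (i : ℕ) :
    ∀ t, ∀ u < N, ∑ v ∈ range N, prq N m i t u v ≤ 1
  | 0, u, hu => by simp [prq, hu]
  | t + 1, u, hu => by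
    simp only [prq]
    rw [Finset.sum_comm]
    calc _ ≤ ∑ s ∈ range N, prq N m i t u s := by
          refine sum_le_sum fun s hs => ?_
          rw [← mul_sum]
          exact mul_le_of_le_one_right (prq_nonneg N hm0 i t u s) (hm _ _ (mem_range.1 hs))
      _ ≤ 1 := prq_le_one hm0 hm i t u hu

/-- The products of the steps of the automaton. -/
theorem prq_cdf (hQ : 0 < Q) (hD : 0 < D0) {B : ℕ → ℕ → ℕ → ℕ}
    (hB : ∀ p, ∀ u < N, ∑ x ∈ range N, B p u x ≤ D0) (i : ℕ) :
    ∀ t, ∀ u < N, ∑ v ∈ range N, |prq (N + 1) (one Q (cdf Q D0 N B)) i t u v -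
      prq N (fun p a b => (B p a b : ℚ) / D0) i t u v| ≤ t * (N / Q)
  | 0, u, hu => by simp [prq]
  | t + 1, u, hu => by
    have ih := prq_cdf hQ hD hB i t u hu
    have hD' : (0 : ℚ) < D0 := by exact_mod_cast hD
    set P := prq (N + 1) (one Q (cdf Q D0 N B)) i t u with hP
    set P' := prq N (fun p a b => (B p a b : ℚ) / D0) i t u with hP'
    have hP'0 : ∀ s, 0 ≤ P' s := fun s => prq_nonneg N (fun _ _ _ => by positivity) i t u s
    have hP'1 : ∑ s ∈ range N, P' s ≤ 1 := by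
      refine prq_le_one (fun _ _ _ => by positivity) (fun p u hu => ?_) i t u hu
      rw [← Finset.sum_div, div_le_one hD']
      exact_mod_cast hB p u hu
    have hone : ∀ s ∈ range N, ∑ v ∈ range N, one Q (cdf Q D0 N B) (i + t) s v ≤ 1 := by
      intro s _
      have h1 := one_sum (Q := Q) hQ (T := cdf Q D0 N B) (N := N) (fun p u x => cdf_le B p u x)
        (i + t) s
      rw [sum_range_succ] at h1
      have := one_nonneg (Q := Q) (cdf Q D0 N B) (i + t) s N
      linarith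
    have h1 : ∀ v ∈ range N, |prq (N + 1) (one Q (cdf Q D0 N B)) i (t + 1) u v -
        prq N (fun p a b => (B p a b : ℚ) / D0) i (t + 1) u v| ≤
        ∑ s ∈ range N, (|P s - P' s| * one Q (cdf Q D0 N B) (i + t) s v + P' s * (1 / Q)) := by
      intro v hv
      rw [mem_range] at hv
      simp only [prq]
      rw [sum_range_succ, one_cdf_dead B hv, mul_zero, add_zero, ← sum_sub_distrib]
      refine (abs_sum_le_sum_abs _ _).trans (sum_le_sum fun s hs => ?_)
      rw [mem_range] at hs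
      have e : P s * one Q (cdf Q D0 N B) (i + t) s v - P' s * ((B (i + t) s v : ℚ) / D0) =
          (P s - P' s) * one Q (cdf Q D0 N B) (i + t) s v +
            P' s * (one Q (cdf Q D0 N B) (i + t) s v - (B (i + t) s v : ℚ) / D0) := by ring
      show |P s * one Q (cdf Q D0 N B) (i + t) s v - P' s * ((B (i + t) s v : ℚ) / D0)| ≤ _
      rw [e]
      refine (abs_add_le _ _).trans (add_le_add ?_ ?_)
      · rw [abs_mul, abs_of_nonneg (one_nonneg _ _ _ _)]
      · rw [abs_mul, abs_of_nonneg (hP'0 s)]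
        exact mul_le_mul_of_nonneg_left (one_cdf hQ hD hs hv (hB _ _ hs)) (hP'0 s)
    refine (sum_le_sum h1).trans ?_
    rw [Finset.sum_comm]
    calc _ ≤ ∑ s ∈ range N, (|P s - P' s| + P' s * (N / Q)) := by
          refine sum_le_sum fun s hs => ?_
          rw [sum_add_distrib, ← mul_sum, sum_const, card_range, nsmul_eq_mul]
          refine add_le_add (mul_le_of_le_one_right (abs_nonneg _) (hone s hs)) (le_of_eq ?_)
          ring
      _ ≤ t * (N / Q) + 1 * (N / Q) := by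
          rw [sum_add_distrib, ← sum_mul]
          exact add_le_add ih (mul_le_mul_of_nonneg_right hP'1 (by positivity))
      _ = ((t + 1 : ℕ) : ℚ) * (N / Q) := by push_cast; ring

/-- **MODULE N2.** The averages of the walks of the automaton of a sequence of matrices. -/
theorem nw_cdf (hQ : 0 < Q) (hD : 0 < D0) {B : ℕ → ℕ → ℕ → ℕ}
    (hB : ∀ p, ∀ u < N, ∑ x ∈ range N, B p u x ≤ D0) {J : ℕ} {w : ℕ → ℕ} {δ : ℚ}
    (hw : NOk Q J N (cdf Q D0 N B) δ w) {i t : ℕ} (hit : i + t ≤ 2 ^ J) {u : ℕ} (hu : u < N) :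
    ∑ v ∈ range N, |(nw Q J w (cdf Q D0 N B) i t u v : ℚ) / Q -
      prq N (fun p a b => (B p a b : ℚ) / D0) i t u v| ≤ δ + t * (N / Q) := by
  have h1 := hw i t hit u hu.le
  rw [sum_range_succ] at h1
  have h2 : 0 ≤ |(nw Q J w (cdf Q D0 N B) i t u N : ℚ) / Q -
      prq (N + 1) (one Q (cdf Q D0 N B)) i t u N| := abs_nonneg _
  have h3 := prq_cdf hQ hD hB i t u hu
  calc _ ≤ ∑ v ∈ range N, (|(nw Q J w (cdf Q D0 N B) i t u v : ℚ) / Q -
        prq (N + 1) (one Q (cdf Q D0 N B)) i t u v| +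
        |prq (N + 1) (one Q (cdf Q D0 N B)) i t u v -
          prq N (fun p a b => (B p a b : ℚ) / D0) i t u v|) :=
        sum_le_sum fun v _ => abs_sub_le _ _ _
    _ ≤ _ := by
        rw [sum_add_distrib]
        linarith

/-! ### Signs -/

/-- The state `2 u + s` is `u` with the sign `(-1) ^ s`. -/
def sgm (Bp Bn : ℕ → ℕ → ℕ → ℕ) (p a b : ℕ) : ℕ :=
  if a % 2 = b % 2 then Bp p (a / 2) (b / 2) else Bn p (a / 2) (b / 2)

theorem sum_two_mul (n : ℕ) (f : ℕ → ℚ) :
    ∑ b ∈ range (2 * n), f b = ∑ v ∈ range n, (f (2 * v) + f (2 * v + 1)) := by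
  induction n with
  | zero => simp
  | succ n ih =>
    rw [Nat.mul_succ, sum_range_succ, sum_range_succ, ih, sum_range_succ]
    ring

theorem sum_two_mul_nat (n : ℕ) (f : ℕ → ℕ) :
    ∑ b ∈ range (2 * n), f b = ∑ v ∈ range n, (f (2 * v) + f (2 * v + 1)) := by
  induction n with
  | zero => simp
  | succ n ih =>
    rw [Nat.mul_succ, sum_range_succ, sum_range_succ, ih, sum_range_succ]
    ring

theorem sgm_sum {n : ℕ} {Bp Bn : ℕ → ℕ → ℕ → ℕ}
    (hB : ∀ p, ∀ u < n, ∑ x ∈ range n, (Bp p u x + Bn p u x) ≤ D0) (p : ℕ) :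
    ∀ a < 2 * n, ∑ b ∈ range (2 * n), sgm Bp Bn p a b ≤ D0 := by
  intro a ha
  rw [sum_two_mul_nat]
  refine le_trans (le_of_eq (sum_congr rfl fun v _ => ?_)) (hB p (a / 2) (by omega))
  unfold sgm
  have e1 : 2 * v % 2 = 0 := by omega
  have e2 : (2 * v + 1) % 2 = 1 := by omega
  have e3 : 2 * v / 2 = v := by omega
  have e4 : (2 * v + 1) / 2 = v := by omega
  rw [e1, e2, e3, e4]
  rcases Nat.mod_two_eq_zero_or_one a with h | h
  · rw [h, if_pos rfl, if_neg (by norm_num)]
  · rw [h, if_neg (by norm_num), if_pos rfl, add_comm]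

/-- The sign of a product. -/
theorem prq_sgm {n : ℕ} (Bp Bn : ℕ → ℕ → ℕ → ℕ) (i : ℕ) :
    ∀ t u v, prq (2 * n) (fun p a b => (sgm Bp Bn p a b : ℚ) / D0) i t (2 * u) (2 * v) -
        prq (2 * n) (fun p a b => (sgm Bp Bn p a b : ℚ) / D0) i t (2 * u) (2 * v + 1) =
      prq n (fun p a b => ((Bp p a b : ℚ) - Bn p a b) / D0) i t u v
  | 0, u, v => by
    simp only [prq]
    have h1 : (2 * u = 2 * v) ↔ u = v := by omega
    have h2 : ¬ (2 * u = 2 * v + 1) := by omega
    rw [if_neg h2, sub_zero]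
    simp only [h1]
  | t + 1, u, v => by
    simp only [prq]
    rw [sum_two_mul, sum_two_mul, ← sum_sub_distrib]
    refine sum_congr rfl fun s _ => ?_
    rw [← prq_sgm Bp Bn i t u s]
    unfold sgm
    have e1 : ∀ s, 2 * s % 2 = 0 := fun s => by omega
    have e2 : ∀ s, (2 * s + 1) % 2 = 1 := fun s => by omega
    have e3 : ∀ s, 2 * s / 2 = s := fun s => by omega
    have e4 : ∀ s, (2 * s + 1) / 2 = s := fun s => by omega
    simp only [e1, e2, e3, e4, if_true, zero_ne_one, one_ne_zero, if_false]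
    ring

/-- **MODULE N2, signed form.** -/
theorem nw_sgm (hQ : 0 < Q) (hD : 0 < D0) {n : ℕ} {Bp Bn : ℕ → ℕ → ℕ → ℕ}
    (hB : ∀ p, ∀ u < n, ∑ x ∈ range n, (Bp p u x + Bn p u x) ≤ D0) {J : ℕ} {w : ℕ → ℕ} {δ : ℚ}
    (hw : NOk Q J (2 * n) (cdf Q D0 (2 * n) (sgm Bp Bn)) δ w) {i t : ℕ} (hit : i + t ≤ 2 ^ J)
    {u : ℕ} (hu : u < n) :
    ∑ v ∈ range n, |((nw Q J w (cdf Q D0 (2 * n) (sgm Bp Bn)) i t (2 * u) (2 * v) : ℚ) -
        nw Q J w (cdf Q D0 (2 * n) (sgm Bp Bn)) i t (2 * u) (2 * v + 1)) / Q -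
      prq n (fun p a b => ((Bp p a b : ℚ) - Bn p a b) / D0) i t u v| ≤
      δ + t * (((2 * n : ℕ) : ℚ) / Q) := by
  refine le_trans (sum_le_sum fun v _ => ?_)
    (le_trans (le_of_eq (sum_two_mul n _).symm)
      (nw_cdf hQ hD (fun p => sgm_sum hB p) hw hit (u := 2 * u) (by omega)))
  rw [← prq_sgm (D0 := D0) Bp Bn i t u v]
  refine le_trans (le_of_eq ?_) (abs_sub _ _)
  congr 1
  ring

end Vale.Agent.P313.N4
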