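import Vale.Agent.P313.H577.ModC

/-!
# Nisan's generator with the digits of a number as hash functions

The label for time `t` of the seed `x`: for the hash functions `c = J - 1, ..., 0` whose bit of `t`
is one, `x` is replaced by `w (2 c) x + w (2 c + 1)` modulo `Q`. For all but a small fraction of the
numbers `om < Q ^ (2 J)`, with `w m` the digits of `om` in base `Q`, the averages of all walks of
length at most `2 ^ J` are close to the products of the matrices of the steps.
-/

namespace Vale.Agent.P313.N4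

open Finset MW H577

/-- The label for time `t`, hash functions below `c`, seed `x`. -/
def nlb (Q : ℕ) (w : ℕ → ℕ) (t : ℕ) : ℕ → ℕ → ℕ
  | 0, x => x
  | c + 1, x => nlb Q w t c (if t / 2 ^ c % 2 = 1 then (w (2 * c) * x + w (2 * c + 1)) % Q else x)

/-- The number of seeds for which the walk from position `i` and state `u` is in state `v` after
`t` steps. -/
def nw (Q J : ℕ) (w : ℕ → ℕ) (T : ℕ → ℕ → ℕ → ℕ) (i t u v : ℕ) : ℕ :=
  #{x ∈ range Q | wlk T (fun j => nlb Q w j J x) i u t = v}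

/-- The chain of the hash functions with parameters `w`. -/
def chn (Q : ℕ) (w : ℕ → ℕ) (J : ℕ) : List (ZMod Q × ZMod Q) :=
  (List.range J).map fun c => ((w (2 * c) : ZMod Q), (w (2 * c + 1) : ZMod Q))

variable {Q : ℕ}

theorem chn_length (w : ℕ → ℕ) (J : ℕ) : (chn Q w J).length = J := by simp [chn]

theorem chn_succ (w : ℕ → ℕ) (J : ℕ) :
    chn Q w (J + 1) = chn Q w J ++ [((w (2 * J) : ZMod Q), (w (2 * J + 1) : ZMod Q))] := by
  simp [chn, List.range_succ]

theorem chn_congr {w w' : ℕ → ℕ} {J : ℕ} (h : ∀ m < 2 * J, w m = w' m) :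
    chn Q w J = chn Q w' J := by
  unfold chn
  refine List.map_congr_left fun c hc => ?_
  rw [List.mem_range] at hc
  rw [h _ (by omega), h _ (by omega)]

theorem labL_chn {w : ℕ → ℕ} (hw : ∀ m, w m < Q) (t : ℕ) :
    ∀ (J x : ℕ), labL (chn Q w J) t x = nlb Q w t J x
  | 0, x => by simp [chn, labL, nlb]
  | J + 1, x => by
    rw [chn_succ, labL_append, chn_length, labL_chn hw t J, nlb]
    congr 1
    have h1 : hv ((w (2 * J) : ZMod Q), (w (2 * J + 1) : ZMod Q)) x =
        (w (2 * J) * x + w (2 * J + 1)) % Q := by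
      unfold hv
      simp only [ZMod.val_natCast, Nat.mod_eq_of_lt (hw _)]
    rw [h1]

theorem nw_eq {w : ℕ → ℕ} (hw : ∀ m, w m < Q) (J : ℕ) (T : ℕ → ℕ → ℕ → ℕ) (i t u v : ℕ) :
    (nw Q J w T i t u v : ℚ) / Q = av T (chn Q w J) i t u v := by
  unfold nw av
  simp only [labL_chn hw]

/-- Digits of a number. -/
def dg (Q om m : ℕ) : ℕ := om / Q ^ m % Q

theorem dg_lt (hQ : 0 < Q) (om m : ℕ) : dg Q om m < Q := Nat.mod_lt _ hQ

theorem dg_mod {J m om : ℕ} (hm : m < J) : dg Q (om % Q ^ J) m = dg Q om m := by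
  unfold dg
  have h1 : Q ^ J = Q ^ m * Q ^ (J - m) := by rw [← pow_add]; congr 1; omega
  have h2 : om % Q ^ J / Q ^ m = om / Q ^ m % Q ^ (J - m) := by
    rw [h1, Nat.mod_mul_right_div_self]
  rw [h2]
  refine Nat.mod_mod_of_dvd _ (dvd_pow_self Q (by omega))

section count

variable [hQ : Fact Q.Prime]

open Classical in
/-- Few numbers give bad chains. -/
theorem card_bad_chn {N s R : ℕ} {ε : ℚ} (hε : 0 < ε) {T : ℕ → ℕ → ℕ → ℕ}
    (hT : ∀ p u x, T p u x ≤ N)
    (hR : (R : ℚ) * ((2 : ℚ) ^ s + 1) ^ 2 * ((N : ℚ) + 1) ^ 2 ≤ Q * ε ^ 2) (J : ℕ) :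
    #{om ∈ range (Q ^ (2 * J)) | ¬ GoodChain (Bad N s ε T) (chn Q (dg Q om) J)} * R ≤
      J * Q ^ (2 * J) := by
  have hQ0 : 0 < Q := hQ.out.pos
  induction J with
  | zero =>
    have : ∀ om, GoodChain (Bad N s ε T) (chn Q (dg Q om) 0) := by
      intro om c₁ h c₂ he
      simp [chn] at he
    simp [this]
  | succ J ih =>
    set M := Q ^ (2 * J) with hM
    have hM0 : 0 < M := Nat.pow_pos hQ0
    have hM2 : Q ^ (2 * (J + 1)) = M * (Q * Q) := by rw [hM]; ring
    -- the chain in terms of the two parts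
    have hch : ∀ om, chn Q (dg Q om) (J + 1) = chn Q (dg Q (om % M)) J ++
        [((dg Q (om / M) 0 : ZMod Q), (dg Q (om / M) 1 : ZMod Q))] := by
      intro om
      rw [chn_succ, chn_congr (w' := dg Q (om % M)) fun m hm => (dg_mod hm).symm]
      congr 3
      · unfold dg
        rw [hM, pow_zero, Nat.div_one]
      · unfold dg
        rw [hM, pow_one, Nat.div_div_eq_div_mul, ← pow_succ]
    set B1 := {om ∈ range M | ¬ GoodChain (Bad N s ε T) (chn Q (dg Q om) J)} with hB1
    set B2 : ℕ → Finset (ZMod Q × ZMod Q) := fun om =>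
      {h : ZMod Q × ZMod Q | Bad N s ε T (chn Q (dg Q om) J) h} with hB2
    have hcard2 : ∀ om, #(B2 om) * R ≤ Q * Q := by
      intro om
      have := card_bad hε hT (chn Q (dg Q om) J) hR
      rwa [Fintype.card_prod, ZMod.card] at this
    have hle : #{om ∈ range (Q ^ (2 * (J + 1))) |
        ¬ GoodChain (Bad N s ε T) (chn Q (dg Q om) (J + 1))} ≤
        #(B1 ×ˢ (univ : Finset (ZMod Q × ZMod Q))) +
          #((range M).sigma B2) := by
      have e1 : #(B1 ×ˢ (univ : Finset (ZMod Q × ZMod Q))) + #((range M).sigma B2) =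
          #(((B1 ×ˢ (univ : Finset (ZMod Q × ZMod Q))).disjSum ((range M).sigma B2))) := by
        rw [card_disjSum]
      rw [e1]
      set hh : ℕ → ZMod Q × ZMod Q := fun om =>
        ((dg Q (om / M) 0 : ZMod Q), (dg Q (om / M) 1 : ZMod Q)) with hhh
      have hinj : ∀ om < Q ^ (2 * (J + 1)), ∀ om' < Q ^ (2 * (J + 1)), om % M = om' % M →
          hh om = hh om' → om = om' := by
        intro om ho om' ho' h1 h2
        have h3 : dg Q (om / M) 0 = dg Q (om' / M) 0 ∧ dg Q (om / M) 1 = dg Q (om' / M) 1 := by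
          simp only [hhh, Prod.mk.injEq] at h2
          refine ⟨?_, ?_⟩
          · have := congrArg ZMod.val h2.1
            rwa [ZMod.val_cast_of_lt (dg_lt hQ0 _ _), ZMod.val_cast_of_lt (dg_lt hQ0 _ _)] at this
          · have := congrArg ZMod.val h2.2
            rwa [ZMod.val_cast_of_lt (dg_lt hQ0 _ _), ZMod.val_cast_of_lt (dg_lt hQ0 _ _)] at this
        have h4 : ∀ z < Q * Q, z = dg Q z 0 + Q * dg Q z 1 := by
          intro z hz
          unfold dg
          have h5 : z / Q < Q := Nat.div_lt_of_lt_mul hz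
          rw [pow_zero, Nat.div_one, pow_one, Nat.mod_eq_of_lt h5, Nat.mod_add_div]
        have h6 : om / M < Q * Q := Nat.div_lt_of_lt_mul (by rwa [hM2] at ho)
        have h7 : om' / M < Q * Q := Nat.div_lt_of_lt_mul (by rwa [hM2] at ho')
        have h8 : om / M = om' / M := by rw [h4 _ h6, h4 _ h7, h3.1, h3.2]
        rw [← Nat.div_add_mod om M, ← Nat.div_add_mod om' M, h1, h8]
      refine card_le_card_of_injOn (fun om =>
        if GoodChain (Bad N s ε T) (chn Q (dg Q (om % M)) J) then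
          Sum.inr ⟨om % M, hh om⟩ else Sum.inl (om % M, hh om)) ?_ ?_
      · intro om hom
        rw [mem_coe, mem_filter, mem_range] at hom
        rw [mem_coe]
        beta_reduce
        have hmod : om % M < M := Nat.mod_lt _ hM0
        by_cases hg : GoodChain (Bad N s ε T) (chn Q (dg Q (om % M)) J)
        · rw [if_pos hg, inr_mem_disjSum, mem_sigma]
          refine ⟨mem_range.2 hmod, ?_⟩
          simp only [hB2, mem_filter, mem_univ, true_and]
          by_contra hb
          apply hom.2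
          rw [hch]
          exact goodChain_append hg hb
        · rw [if_neg hg, inl_mem_disjSum, mem_product]
          exact ⟨mem_filter.2 ⟨mem_range.2 hmod, hg⟩, mem_univ _⟩
      · intro om hom om' hom' he
        rw [mem_coe, mem_filter, mem_range] at hom hom'
        beta_reduce at he
        by_cases hg : GoodChain (Bad N s ε T) (chn Q (dg Q (om % M)) J)
        · by_cases hg' : GoodChain (Bad N s ε T) (chn Q (dg Q (om' % M)) J)
          · rw [if_pos hg, if_pos hg', Sum.inr.injEq, Sigma.mk.injEq] at he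
            exact hinj om hom.1 om' hom'.1 he.1 (eq_of_heq he.2)
          · rw [if_pos hg, if_neg hg'] at he
            cases he
        · by_cases hg' : GoodChain (Bad N s ε T) (chn Q (dg Q (om' % M)) J)
          · rw [if_neg hg, if_pos hg'] at he
            cases he
          · rw [if_neg hg, if_neg hg', Sum.inl.injEq, Prod.mk.injEq] at he
            exact hinj om hom.1 om' hom'.1 he.1 he.2
    calc #{om ∈ range (Q ^ (2 * (J + 1))) |
          ¬ GoodChain (Bad N s ε T) (chn Q (dg Q om) (J + 1))} * R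
        ≤ (#(B1 ×ˢ (univ : Finset (ZMod Q × ZMod Q))) + #((range M).sigma B2)) * R :=
          Nat.mul_le_mul_right _ hle
      _ = #B1 * R * (Q * Q) + ∑ om ∈ range M, #(B2 om) * R := by
          rw [card_product, card_univ, Fintype.card_prod, ZMod.card, card_sigma, add_mul,
            sum_mul]
          ring
      _ ≤ J * M * (Q * Q) + ∑ _om ∈ range M, Q * Q :=
          add_le_add (Nat.mul_le_mul_right _ ih) (sum_le_sum fun om _ => hcard2 om)
      _ = (J + 1) * Q ^ (2 * (J + 1)) := by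
          rw [sum_const, card_range, smul_eq_mul, hM2]
          ring

/-- The estimates with the hash functions `w` are good for the automaton `T`. -/
def NOk (Q J N : ℕ) (T : ℕ → ℕ → ℕ → ℕ) (δ : ℚ) (w : ℕ → ℕ) : Prop :=
  ∀ i t, i + t ≤ 2 ^ J → ∀ u ≤ N,
    ∑ v ∈ range (N + 1), |(nw Q J w T i t u v : ℚ) / Q - prq (N + 1) (one Q T) i t u v| ≤ δ

theorem nok_of_good {N J : ℕ} {ε : ℚ} (hε : 0 < ε) {T : ℕ → ℕ → ℕ → ℕ}
    (hT : ∀ p u x, T p u x ≤ N) {w : ℕ → ℕ} (hw : ∀ m, w m < Q)
    (hg : GoodChain (Bad N J ε T) (chn Q w J)) :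
    NOk Q J N T (2 ^ J * (((N : ℚ) + 1) * ε)) w := by
  intro i t hit u hu
  simp only [nw_eq hw]
  refine (chain_error hQ.out.pos hε hT (chn Q w J) hg t (by rw [chn_length]; omega) i hit u
    hu).trans ?_
  have h1 : ((t - 1 : ℕ) : ℚ) ≤ 2 ^ J := by
    have : t - 1 ≤ 2 ^ J := by omega
    exact_mod_cast this
  have h2 : (0 : ℚ) ≤ ((N : ℚ) + 1) * ε := by positivity
  exact mul_le_mul_of_nonneg_right h1 h2

open Classical in
/-- **MODULE N1.** Few numbers below `Q ^ (2 J)` give bad estimates for a finite family of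
automata. -/
theorem card_not_nok {ι : Type*} (A : Finset ι) {T : ι → ℕ → ℕ → ℕ → ℕ} {N J R : ℕ} {ε : ℚ}
    (hε : 0 < ε) (hT : ∀ a p u x, T a p u x ≤ N)
    (hR : (R : ℚ) * ((2 : ℚ) ^ J + 1) ^ 2 * ((N : ℚ) + 1) ^ 2 ≤ Q * ε ^ 2) :
    #{om ∈ range (Q ^ (2 * J)) |
        ¬ ∀ a ∈ A, NOk Q J N (T a) (2 ^ J * (((N : ℚ) + 1) * ε)) (dg Q om)} * R ≤
      #A * (J * Q ^ (2 * J)) := by
  have hsub : {om ∈ range (Q ^ (2 * J)) |
        ¬ ∀ a ∈ A, NOk Q J N (T a) (2 ^ J * (((N : ℚ) + 1) * ε)) (dg Q om)} ⊆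
      A.biUnion fun a => {om ∈ range (Q ^ (2 * J)) |
        ¬ GoodChain (Bad N J ε (T a)) (chn Q (dg Q om) J)} := by
    intro om hom
    rw [mem_filter] at hom
    obtain ⟨h1, h2⟩ := hom
    push Not at h2
    obtain ⟨a, ha, h3⟩ := h2
    rw [mem_biUnion]
    refine ⟨a, ha, mem_filter.2 ⟨h1, fun hg => h3 ?_⟩⟩
    exact nok_of_good hε (hT a) (dg_lt hQ.out.pos om) hg
  calc _ ≤ (∑ a ∈ A, #{om ∈ range (Q ^ (2 * J)) |
        ¬ GoodChain (Bad N J ε (T a)) (chn Q (dg Q om) J)}) * R :=
        Nat.mul_le_mul_right _ ((card_le_card hsub).trans card_biUnion_le)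
    _ = ∑ a ∈ A, #{om ∈ range (Q ^ (2 * J)) |
        ¬ GoodChain (Bad N J ε (T a)) (chn Q (dg Q om) J)} * R := by rw [sum_mul]
    _ ≤ ∑ _a ∈ A, J * Q ^ (2 * J) := sum_le_sum fun a _ => card_bad_chn hε (hT a) hR J
    _ = _ := by rw [sum_const, smul_eq_mul]

end count

end Vale.Agent.P313.N4
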